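import Vale.Agent.P039.H792.Bridge
import Vale.Agent.P039.Bz.Conv

/-! The bridge in the form used for the composition. -/

namespace Vale.Agent.P039.H792

open Vale.Agent.P039

theorem bridgeStmt.{u} : Bz.BridgeStmt.{u} := by
  intro V _ _ G hG
  obtain ⟨B, W, F, iB, iW, iF, -, -, -, M, h1, h2, -, -, h3, h4⟩ := bridge G hG
  refine ⟨B, W, F, iB, iW, iF, M, h1, (Bz.c3_iff_vset M).2 h3, ?_, ?_⟩
  · exact Fintype.card_pos_iff.1 (by omega)
  · rintro ⟨m, hm⟩
    obtain ⟨h5, h6⟩ := (Bz.hamM_iff_eqvGen M m).1 hm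
    exact h4 m h5 h6

end Vale.Agent.P039.H792
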