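import Vale.Agent.P039.Bz.Stmt
import Vale.Agent.P039.Bn.L2.RankA
import Vale.Agent.P039.Bt.H454.FB
import Vale.Agent.P039.H484.Hall2

/-! Two disjoint matchings (STEP 5). -/

namespace Vale.Agent.P039.H792

open Vale.Agent.P039 Vale.Agent.P039.Bn Finset

variable {B W V : Type} (M : PMap B W V)

section Rank

variable [Fintype B] [Fintype W] [Fintype V]

open Classical in
/-- the black vertices on the faces of `K` -/
noncomputable def bl (K : Finset V) : Finset B := univ.filter fun b => ∃ j, M.c j b ∈ K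

open Classical in
/-- the white vertices on the faces of `K` -/
noncomputable def wh (K : Finset V) : Finset W := univ.filter fun w => ∃ j, M.cw j w ∈ K

open Classical in
/-- the edges on the boundary of the faces of `K` -/
noncomputable def ed (K : Finset V) : Finset (Fin 3 × B) :=
  univ.filter fun p => ∃ j, j ≠ p.1 ∧ M.c j p.2 ∈ K

theorem mem_bl {K : Finset V} {b : B} : b ∈ bl M K ↔ ∃ j, M.c j b ∈ K := by
  classical simp [bl]

theorem mem_wh {K : Finset V} {w : W} : w ∈ wh M K ↔ ∃ j, M.cw j w ∈ K := by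
  classical simp [wh]

theorem mem_ed {K : Finset V} {p : Fin 3 × B} : p ∈ ed M K ↔ ∃ j, j ≠ p.1 ∧ M.c j p.2 ∈ K := by
  classical simp [ed]

/-- the set of faces is connected: it is not a union of two parts such that no vertex of `G` lies
on faces of both -/
def Ind (K : Finset V) : Prop :=
  ∀ K1 : Finset V, K1 ⊆ K → K1.Nonempty →
    (∀ b j j', M.c j b ∈ K1 → M.c j' b ∈ K → M.c j' b ∈ K1) → K1 = K

theorem rank_K (hM : M.Conn) (K : Finset V) (hne : K.Nonempty) (huniv : ∃ v, v ∉ K)
    (hind : Ind M K) :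
    K.card + ((bl M K).card + (wh M K).card) ≤ (ed M K).card + 1 := by
  classical
  let s : {p // p ∈ ed M K} → {b // b ∈ bl M K} ⊕ {w // w ∈ wh M K} := fun p =>
    Sum.inl ⟨p.1.2, (mem_bl M).2 (by
      obtain ⟨j, _, h⟩ := (mem_ed M).1 p.2
      exact ⟨j, h⟩)⟩
  let t : {p // p ∈ ed M K} → {b // b ∈ bl M K} ⊕ {w // w ∈ wh M K} := fun p =>
    Sum.inr ⟨M.e p.1.1 p.1.2, (mem_wh M).2 (by
      obtain ⟨j, hj, h⟩ := (mem_ed M).1 p.2
      exact ⟨j, by rw [M.cw_e j _ hj.symm]; exact h⟩)⟩
  let ext : ({v // v ∈ K} → ℚ) → V → ℚ := fun n v => if h : v ∈ K then n ⟨v, h⟩ else 0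
  have hext : ∀ n v (h : v ∈ K), ext n v = n ⟨v, h⟩ := fun n v h => dif_pos h
  have hext0 : ∀ n v, v ∉ K → ext n v = 0 := fun n v h => dif_neg h
  let D : ({v // v ∈ K} → ℚ) →ₗ[ℚ] ({p // p ∈ ed M K} → ℚ) :=
    { toFun := fun n p => ext n (M.c (p.1.1 + 1) p.1.2) - ext n (M.c (p.1.1 + 2) p.1.2)
      map_add' := by
        intro x y
        funext p
        have key : ∀ v, ext (x + y) v = ext x v + ext y v := by
          intro v
          by_cases h : v ∈ K
          · rw [hext _ _ h, hext _ _ h, hext _ _ h, Pi.add_apply]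
          · rw [hext0 _ _ h, hext0 _ _ h, hext0 _ _ h, add_zero]
        simp only [Pi.add_apply, key]
        ring
      map_smul' := by
        intro a x
        funext p
        have key : ∀ v, ext (a • x) v = a * ext x v := by
          intro v
          by_cases h : v ∈ K
          · rw [hext _ _ h, hext _ _ h, Pi.smul_apply, smul_eq_mul]
          · rw [hext0 _ _ h, hext0 _ _ h, mul_zero]
        simp only [Pi.smul_apply, smul_eq_mul, RingHom.id_apply, key]
        ring }
  have hD : ∀ n p, D n p = ext n (M.c (p.1.1 + 1) p.1.2) - ext n (M.c (p.1.1 + 2) p.1.2) :=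
    fun n p => rfl
  -- outside `ed` the difference vanishes
  have hout : ∀ n i b, (i, b) ∉ ed M K → ext n (M.c (i + 1) b) - ext n (M.c (i + 2) b) = 0 := by
    intro n i b h
    rw [mem_ed] at h
    push Not at h
    rw [hext0 _ _ (h (i + 1) (fne1 i)), hext0 _ _ (h (i + 2) (fne2 i)), sub_zero]
  have hinj : Function.Injective D := by
    rw [injective_iff_map_eq_zero]
    intro n hn
    have h1 : ∀ b i, ext n (M.c (i + 1) b) = ext n (M.c (i + 2) b) := by
      intro b i
      by_cases h : (i, b) ∈ ed M K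
      · have := congrFun hn ⟨(i, b), h⟩
        rw [hD, Pi.zero_apply] at this
        exact sub_eq_zero.1 this
      · exact sub_eq_zero.1 (hout n i b h)
    have h2 : ∀ b j j', ext n (M.c j b) = ext n (M.c j' b) := by
      intro b j j'
      have e0 := h1 b 0
      have e1 := h1 b 1
      have e2 := h1 b 2
      have hall : ∀ j, ext n (M.c j b) = ext n (M.c 0 b) := by
        intro j
        fin_cases j
        · rfl
        · exact e2.symm
        · exact e1
      rw [hall j, hall j']
    obtain ⟨v0, hv0⟩ := huniv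
    have h3 := Bt.H454.const_of_black M hM (ext n) h2
    funext v
    rw [← hext n v.1 v.2, h3 v.1 v0, hext0 _ _ hv0]
    rfl
  have hdiv : ∀ n (h : {b // b ∈ bl M K} ⊕ {w // w ∈ wh M K} → ℚ),
      ∑ p, (h (s p) - h (t p)) * D n p = 0 := by
    intro n h
    let al : B → ℚ := fun b => if hb : b ∈ bl M K then h (Sum.inl ⟨b, hb⟩) else 0
    let ga : W → ℚ := fun w => if hw : w ∈ wh M K then h (Sum.inr ⟨w, hw⟩) else 0
    have h0 := Bt.H454.orth M (ext n) al ga
    have h1 : ∑ b, ∑ i, (ext n (M.c (i + 1) b) - ext n (M.c (i + 2) b)) * (al b - ga (M.e i b)) =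
        ∑ p : Fin 3 × B, (ext n (M.c (p.1 + 1) p.2) - ext n (M.c (p.1 + 2) p.2)) *
          (al p.2 - ga (M.e p.1 p.2)) := by
      rw [Fintype.sum_prod_type_right]
    rw [h1] at h0
    rw [← h0]
    have h2 : ∑ p : Fin 3 × B, (ext n (M.c (p.1 + 1) p.2) - ext n (M.c (p.1 + 2) p.2)) *
          (al p.2 - ga (M.e p.1 p.2)) =
        ∑ p ∈ ed M K, (ext n (M.c (p.1 + 1) p.2) - ext n (M.c (p.1 + 2) p.2)) *
          (al p.2 - ga (M.e p.1 p.2)) := by
      symm
      apply Finset.sum_subset (Finset.subset_univ _)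
      rintro ⟨i, b⟩ - hp
      rw [hout n i b hp, zero_mul]
    rw [h2, ← Finset.sum_coe_sort (ed M K)]
    refine Finset.sum_congr rfl fun p _ => ?_
    have e1 : al p.1.2 = h (s p) := by
      have : p.1.2 ∈ bl M K := (mem_bl M).2 (by
        obtain ⟨j, _, h⟩ := (mem_ed M).1 p.2
        exact ⟨j, h⟩)
      exact dif_pos this
    have e2 : ga (M.e p.1.1 p.1.2) = h (t p) := by
      have : M.e p.1.1 p.1.2 ∈ wh M K := (mem_wh M).2 (by
        obtain ⟨j, hj, h⟩ := (mem_ed M).1 p.2
        exact ⟨j, by rw [M.cw_e j _ hj.symm]; exact h⟩)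
      exact dif_pos this
    rw [hD, e1, e2]
    ring
  have hconn : ∀ h : {b // b ∈ bl M K} ⊕ {w // w ∈ wh M K} → ℚ,
      (∀ p, h (s p) = h (t p)) → ∀ u v, h u = h v := by
    intro h hh
    let al : B → ℚ := fun b => if hb : b ∈ bl M K then h (Sum.inl ⟨b, hb⟩) else 0
    let ga : W → ℚ := fun w => if hw : w ∈ wh M K then h (Sum.inr ⟨w, hw⟩) else 0
    have hedge : ∀ i b j, j ≠ i → M.c j b ∈ K → al b = ga (M.e i b) := by
      intro i b j hj hjK
      have hmem : (i, b) ∈ ed M K := (mem_ed M).2 ⟨j, hj, hjK⟩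
      have h1 := hh ⟨(i, b), hmem⟩
      have hb : b ∈ bl M K := (mem_bl M).2 ⟨j, hjK⟩
      have hw : M.e i b ∈ wh M K := (mem_wh M).2 ⟨j, by rw [M.cw_e j _ hj.symm]; exact hjK⟩
      have e1 : al b = h (Sum.inl ⟨b, hb⟩) := dif_pos hb
      have e2 : ga (M.e i b) = h (Sum.inr ⟨M.e i b, hw⟩) := dif_pos hw
      rw [e1, e2]
      exact h1
    have haround : ∀ j x y, M.c j x = M.c j y → M.c j x ∈ K → al x = al y := by
      intro j x y hxy
      have hgen := M.exact j x y hxy
      clear hxy
      induction hgen with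
      | rel x y hr =>
        intro hx
        have hy : M.c j y ∈ K := by rw [M.step j x y hr]; exact hx
        rw [hedge (j + 2) x j (fne2 j).symm hx, hedge (j + 1) y j (fne1 j).symm hy, hr]
      | refl x => intro _; rfl
      | symm x y h1 ih =>
        intro hx
        have : M.c j x = M.c j y := M.c_of_eqvGen h1
        exact (ih (by rw [this]; exact hx)).symm
      | trans x y z h1 h2 ih1 ih2 =>
        intro hx
        have : M.c j x = M.c j y := M.c_of_eqvGen h1
        exact (ih1 hx).trans (ih2 (by rw [← this]; exact hx))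
    obtain ⟨v0, hv0⟩ := hne
    obtain ⟨j0, x0, rfl⟩ := M.surj v0
    have hK1 := hind (K.filter fun v => ∀ b j, M.c j b = v → al b = al x0)
      (Finset.filter_subset _ _) ⟨M.c j0 x0, by
        rw [Finset.mem_filter]
        refine ⟨hv0, fun b j hb => ?_⟩
        have hj := M.cls _ _ _ _ hb
        subst hj
        exact haround j b x0 hb (by rw [hb]; exact hv0)⟩ (by
        intro b j j' h1 h2
        rw [Finset.mem_filter] at h1 ⊢
        refine ⟨h2, fun b' j'' hb' => ?_⟩
        have hj := M.cls _ _ _ _ hb'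
        subst hj
        rw [haround j'' b' b hb' (by rw [hb']; exact h2)]
        exact h1.2 b j rfl)
    have hall : ∀ b j, M.c j b ∈ K → al b = al x0 := by
      intro b j hb
      rw [← hK1, Finset.mem_filter] at hb
      exact hb.2 b j rfl
    have hval : ∀ u, h u = al x0 := by
      rintro (⟨b, hb⟩ | ⟨w, hw⟩)
      · obtain ⟨j, hj⟩ := (mem_bl M).1 hb
        have e1 : al b = h (Sum.inl ⟨b, hb⟩) := dif_pos hb
        rw [← hall b j hj, e1]
      · obtain ⟨j, hj⟩ := (mem_wh M).1 hw
        have h1 : M.cw j w = M.c j ((M.e (j + 1)).symm w) := rfl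
        rw [h1] at hj
        have h2 := hedge (j + 1) _ j (fne1 j).symm hj
        rw [Equiv.apply_symm_apply, hall _ j hj] at h2
        have e2 : ga w = h (Sum.inr ⟨w, hw⟩) := dif_pos hw
        rw [h2, e2]
    intro u v
    rw [hval u, hval v]
  have : Nonempty ({b // b ∈ bl M K} ⊕ {w // w ∈ wh M K}) := by
    obtain ⟨v0, hv0⟩ := hne
    obtain ⟨j0, x0, rfl⟩ := M.surj v0
    exact ⟨Sum.inl ⟨x0, (mem_bl M).2 ⟨j0, hv0⟩⟩⟩
  have hfin := L2.rank_ineq s t hconn D hinj hdiv
  rw [Fintype.card_sum, Fintype.card_coe, Fintype.card_coe, Fintype.card_coe, Fintype.card_coe]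
    at hfin
  exact hfin

end Rank

section Count

theorem fin3a : ∀ p : Fin 3 → Bool, (univ.filter fun i => ∃ j, j ≠ i ∧ p j = true).card +
    (if (univ.filter fun j => p j = true).card = 1 then 1 else 0) =
      3 * (if ∃ j, p j = true then 1 else 0) := by decide

theorem fin3b : ∀ p : Fin 3 → Bool, min 2 (univ.filter fun j => p j = true).card +
    (if (univ.filter fun j => p j = true).card = 1 then 1 else 0) =
      2 * (if ∃ j, p j = true then 1 else 0) := by decide

theorem fin3c : ∀ p q : Fin 3 → Bool,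
    (∀ i, q i = true → (∃ j, p j = true) ∧ ∀ j, j ≠ i → p j = false) →
    (univ.filter fun j => q j = true).card ≤
      (if (univ.filter fun j => p j = true).card = 1 then 1 else 0) := by decide

open Classical in
/-- the number of indices with the property -/
noncomputable def n3 (P : Fin 3 → Prop) : ℕ := (univ.filter fun j => P j).card

open Classical in
/-- `1` if the proposition holds, else `0` -/
noncomputable def ind (p : Prop) : ℕ := if p then 1 else 0

theorem ind_of {p : Prop} (h : p) : ind p = 1 := if_pos h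

theorem ind_not {p : Prop} (h : ¬ p) : ind p = 0 := if_neg h

theorem n3_bool (p : Fin 3 → Bool) : n3 (fun j => p j = true) =
    (univ.filter fun j => p j = true).card := by
  unfold n3
  congr

theorem ind_eq (p : Prop) [Decidable p] : ind p = if p then 1 else 0 := by
  by_cases h : p
  · rw [ind_of h, if_pos h]
  · rw [ind_not h, if_neg h]

theorem exists_bool (P : Fin 3 → Prop) : ∃ p : Fin 3 → Bool, P = fun j => p j = true := by
  classical
  exact ⟨fun j => decide (P j), by funext j; simp⟩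

theorem fin3a' (P : Fin 3 → Prop) :
    n3 (fun i => ∃ j, j ≠ i ∧ P j) + ind (n3 P = 1) = 3 * ind (∃ j, P j) := by
  obtain ⟨p, rfl⟩ := exists_bool P
  have h := fin3a p
  have h1 : n3 (fun i => ∃ j, j ≠ i ∧ p j = true) =
      (univ.filter fun i => ∃ j, j ≠ i ∧ p j = true).card := by
    unfold n3
    congr
  rw [h1, n3_bool, ind_eq, ind_eq]
  exact h

theorem fin3b' (P : Fin 3 → Prop) : min 2 (n3 P) + ind (n3 P = 1) = 2 * ind (∃ j, P j) := by
  obtain ⟨p, rfl⟩ := exists_bool P
  rw [n3_bool, ind_eq, ind_eq]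
  exact fin3b p

theorem fin3c' (P Q : Fin 3 → Prop) (hPQ : ∀ i, Q i → (∃ j, P j) ∧ ∀ j, j ≠ i → ¬ P j) :
    n3 Q ≤ ind (n3 P = 1) := by
  obtain ⟨p, rfl⟩ := exists_bool P
  obtain ⟨q, rfl⟩ := exists_bool Q
  rw [n3_bool, n3_bool, ind_eq]
  exact fin3c p q fun i hi => ⟨(hPQ i hi).1, fun j hj => by simpa using (hPQ i hi).2 j hj⟩

variable [Fintype B] [Fintype W] [Fintype V]

/-- the number of faces of `K` at `b` -/
noncomputable def kb (K : Finset V) (b : B) : ℕ := n3 fun j => M.c j b ∈ K

open Classical in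
/-- the number of edges with the property -/
noncomputable def np (Q : Fin 3 → B → Prop) : ℕ := (univ.filter fun p : Fin 3 × B => Q p.1 p.2).card

theorem np_black (Q : Fin 3 → B → Prop) : np Q = ∑ b, n3 fun i => Q i b := by
  classical
  unfold np n3
  simp only [Finset.card_filter]
  rw [Fintype.sum_prod_type_right]

theorem np_white (Q : Fin 3 → B → Prop) :
    np Q = ∑ w, n3 fun i => Q i ((M.e i).symm w) := by
  classical
  unfold np n3
  simp only [Finset.card_filter]
  rw [Fintype.sum_prod_type, Finset.sum_comm (s := (univ : Finset W))]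
  refine Finset.sum_congr rfl fun i _ => ?_
  exact (Equiv.sum_comp (M.e i).symm fun b => if Q i b then 1 else 0).symm

theorem np_add (Q Q' : Fin 3 → B → Prop) (h : ∀ i b, Q i b → ¬ Q' i b) :
    np Q + np Q' = np fun i b => Q i b ∨ Q' i b := by
  classical
  unfold np
  rw [← Finset.card_union_of_disjoint]
  · congr 1
    ext p
    simp only [Finset.mem_filter, Finset.mem_univ, true_and, Finset.mem_union]
  · rw [Finset.disjoint_filter]
    intro p _ h1 h2
    exact h _ _ h1 h2

theorem np_congr {Q Q' : Fin 3 → B → Prop} (h : ∀ i b, Q i b ↔ Q' i b) : np Q = np Q' := by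
  have : Q = Q' := by funext i b; exact propext (h i b)
  rw [this]

theorem n3_const (p : Prop) : n3 (fun _ => p) = 3 * ind p := by
  by_cases h : p
  · rw [ind_of h]; simp [n3, h]
  · rw [ind_not h]; simp [n3, h]

theorem card_eq_ind {α : Type} [Fintype α] (A : Finset α) : A.card = ∑ a, ind (a ∈ A) := by
  classical
  simp only [ind_eq]
  rw [← Finset.card_filter]
  simp

theorem ed_card (K : Finset V) : (ed M K).card = np fun i b => ∃ j, j ≠ i ∧ M.c j b ∈ K := by
  unfold ed np
  congr 1
  ext p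
  simp only [Finset.mem_filter, Finset.mem_univ, true_and]

theorem cutc_eq (S : Finset B) (T : Finset W) :
    Bz.cutc M (S : Set B) (T : Set W) = np (fun i b => b ∈ S ∧ M.e i b ∉ T) +
      np (fun i b => b ∉ S ∧ M.e i b ∈ T) := by
  rw [np_add _ _ (by tauto)]
  have h : Bz.cutc M (S : Set B) (T : Set W) =
      np fun i b => ¬ (b ∈ (S : Set B) ↔ M.e i b ∈ (T : Set W)) := by
    unfold Bz.cutc np
    congr 1
    ext p
    simp only [Finset.mem_filter, Finset.mem_univ, true_and]
  rw [h]
  apply np_congr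
  intro i b
  simp only [Finset.mem_coe]
  tauto

theorem hall_ind (hM : M.Conn) (h3 : Bz.C3 M) (h4 : Bz.C4 M) (b₀ : B) (K : Finset V)
    (hne : K.Nonempty) (hK : ∀ j, M.c j b₀ ∉ K) (hind : Ind M K) :
    2 * K.card ≤ ∑ b, min 2 (kb M K b) := by
  have hrank := rank_K M hM K hne ⟨_, hK 0⟩ hind
  obtain ⟨v0, hv0⟩ := hne
  obtain ⟨j0, x0, rfl⟩ := M.surj v0
  have hx0 : x0 ∈ bl M K := (mem_bl M).2 ⟨j0, hv0⟩
  have hw0 : M.e (j0 + 1) x0 ∈ wh M K := (mem_wh M).2 ⟨j0, by rw [M.cw_e1]; exact hv0⟩
  have hb₀ : b₀ ∉ bl M K := by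
    rw [mem_bl]
    rintro ⟨j, hj⟩
    exact hK j hj
  -- incidence counts
  have e1 : (ed M K).card + ∑ b, ind (kb M K b = 1) = 3 * (bl M K).card := by
    rw [ed_card, np_black, card_eq_ind (bl M K), Finset.mul_sum, ← Finset.sum_add_distrib]
    refine Finset.sum_congr rfl fun b _ => ?_
    rw [show (b ∈ bl M K) = ∃ j, M.c j b ∈ K from propext (mem_bl M)]
    exact fin3a' fun j => M.c j b ∈ K
  have e2 : (ed M K).card + ∑ w, ind (n3 (fun j => M.cw j w ∈ K) = 1) = 3 * (wh M K).card := by
    rw [ed_card, np_white M, card_eq_ind (wh M K), Finset.mul_sum, ← Finset.sum_add_distrib]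
    refine Finset.sum_congr rfl fun w _ => ?_
    rw [show (w ∈ wh M K) = ∃ j, M.cw j w ∈ K from propext (mem_wh M)]
    rw [← fin3a' fun j => M.cw j w ∈ K]
    congr 2
    funext i
    apply propext
    constructor
    · rintro ⟨j, hj, h⟩
      exact ⟨j, hj, by rw [← M.cw_symm j i hj.symm]; exact h⟩
    · rintro ⟨j, hj, h⟩
      exact ⟨j, hj, by rw [M.cw_symm j i hj.symm]; exact h⟩
  have e3 : ∑ b, min 2 (kb M K b) + ∑ b, ind (kb M K b = 1) = 2 * (bl M K).card := by
    rw [card_eq_ind (bl M K), Finset.mul_sum, ← Finset.sum_add_distrib]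
    refine Finset.sum_congr rfl fun b _ => ?_
    rw [show (b ∈ bl M K) = ∃ j, M.c j b ∈ K from propext (mem_bl M)]
    exact fin3b' fun j => M.c j b ∈ K
  -- the cut
  have c1 := cutc_eq M (bl M K) (wh M K)
  have c2 : np (fun i b => b ∈ bl M K ∧ M.e i b ∉ wh M K) +
      np (fun i b => b ∈ bl M K ∧ M.e i b ∈ wh M K) = 3 * (bl M K).card := by
    rw [np_add _ _ (by tauto), np_black, card_eq_ind (bl M K), Finset.mul_sum]
    refine Finset.sum_congr rfl fun b _ => ?_
    rw [← n3_const]
    congr 1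
    funext i
    apply propext
    tauto
  have c3 : np (fun i b => b ∉ bl M K ∧ M.e i b ∈ wh M K) +
      np (fun i b => b ∈ bl M K ∧ M.e i b ∈ wh M K) = 3 * (wh M K).card := by
    rw [np_add _ _ (by tauto), np_white M, card_eq_ind (wh M K), Finset.mul_sum]
    refine Finset.sum_congr rfl fun w _ => ?_
    rw [← n3_const]
    congr 1
    funext i
    apply propext
    rw [Equiv.apply_symm_apply]
    tauto
  have i1 : np (fun i b => b ∈ bl M K ∧ M.e i b ∉ wh M K) ≤ ∑ b, ind (kb M K b = 1) := by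
    rw [np_black]
    refine Finset.sum_le_sum fun b _ => ?_
    refine fin3c' (fun j => M.c j b ∈ K) _ ?_
    rintro i ⟨h1, h2⟩
    refine ⟨(mem_bl M).1 h1, fun j hj h => h2 ((mem_wh M).2 ⟨j, ?_⟩)⟩
    rw [M.cw_e j i hj.symm]
    exact h
  have i2 : np (fun i b => b ∉ bl M K ∧ M.e i b ∈ wh M K) ≤
      ∑ w, ind (n3 (fun j => M.cw j w ∈ K) = 1) := by
    rw [np_white M]
    refine Finset.sum_le_sum fun w _ => ?_
    refine fin3c' (fun j => M.cw j w ∈ K) _ ?_
    rintro i ⟨h1, h2⟩
    rw [Equiv.apply_symm_apply] at h2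
    refine ⟨(mem_wh M).1 h2, fun j hj h => h1 ((mem_bl M).2 ⟨j, ?_⟩)⟩
    rw [M.cw_symm j i hj.symm]
    exact h
  have k1 := h3 (bl M K : Set B) (wh M K : Set W) (Or.inl ⟨x0, hx0⟩) (Or.inl ⟨b₀, hb₀⟩)
  have k2 := h4 (bl M K : Set B) (wh M K : Set W)
  rw [c1] at k1 k2
  classical
  rw [← Finset.coe_compl, ← Finset.coe_compl, Set.ncard_coe_finset, Set.ncard_coe_finset,
    Set.ncard_coe_finset, Set.ncard_coe_finset] at k2
  have n1 : 0 < (bl M K).card := Finset.card_pos.2 ⟨_, hx0⟩
  have n2 : 0 < (wh M K).card := Finset.card_pos.2 ⟨_, hw0⟩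
  have n3' : 0 < (bl M K)ᶜ.card := Finset.card_pos.2 ⟨_, Finset.mem_compl.2 hb₀⟩
  have n4 := Finset.card_add_card_compl (bl M K)
  have n5 := Finset.card_add_card_compl (wh M K)
  have n6 : Fintype.card B = Fintype.card W := Fintype.card_congr (M.e 0)
  generalize np (fun i b => b ∈ bl M K ∧ M.e i b ∉ wh M K) = P at *
  generalize np (fun i b => b ∉ bl M K ∧ M.e i b ∈ wh M K) = Q at *
  generalize np (fun i b => b ∈ bl M K ∧ M.e i b ∈ wh M K) = R at *
  by_cases h : P + Q = 3
  · have := k2 h
    omega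
  · omega

end Count

section All

variable [Fintype B] [Fintype W] [Fintype V]

theorem n3_false {P : Fin 3 → Prop} (h : ∀ j, ¬ P j) : n3 P = 0 := by
  classical
  unfold n3
  rw [Finset.card_eq_zero, Finset.filter_eq_empty_iff]
  exact fun j _ => h j

theorem n3_congr {P P' : Fin 3 → Prop} (h : ∀ j, P j ↔ P' j) : n3 P = n3 P' := by
  have : P = P' := by funext j; exact propext (h j)
  rw [this]

theorem hall_all (hM : M.Conn) (h3 : Bz.C3 M) (h4 : Bz.C4 M) (b₀ : B) (n : ℕ) :
    ∀ K : Finset V, K.card = n → (∀ j, M.c j b₀ ∉ K) → 2 * K.card ≤ ∑ b, min 2 (kb M K b) := by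
  classical
  induction n using Nat.strong_induction_on with
  | _ n ih =>
  intro K hn hK
  rcases K.eq_empty_or_nonempty with rfl | hne
  · simp
  by_cases hind : Ind M K
  · exact hall_ind M hM h3 h4 b₀ K hne hK hind
  · unfold Ind at hind
    push Not at hind
    obtain ⟨K1, hsub, hne1, hcl, hneq⟩ := hind
    have hlt1 : K1.card < K.card :=
      Finset.card_lt_card (Finset.ssubset_iff_subset_ne.2 ⟨hsub, hneq⟩)
    have hc : (K \ K1).card + K1.card = K.card := Finset.card_sdiff_add_card_eq_card hsub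
    have hpos : 0 < K1.card := Finset.card_pos.2 hne1
    have a1 := ih K1.card (by omega) K1 rfl fun j h => hK j (hsub h)
    have a2 := ih (K \ K1).card (by omega) (K \ K1) rfl fun j h => hK j (Finset.mem_sdiff.1 h).1
    have hs : ∀ b, min 2 (kb M K1 b) + min 2 (kb M (K \ K1) b) = min 2 (kb M K b) := by
      intro b
      by_cases h : ∃ j, M.c j b ∈ K1
      · obtain ⟨j, hj⟩ := h
        have h1 : kb M (K \ K1) b = 0 := by
          apply n3_false
          intro j' hj'
          rw [Finset.mem_sdiff] at hj'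
          exact hj'.2 (hcl b j j' hj hj'.1)
        have h2 : kb M K1 b = kb M K b :=
          n3_congr fun j' => ⟨fun h => hsub h, fun h => hcl b j j' hj h⟩
        rw [h1, h2]
        simp
      · push Not at h
        have h1 : kb M K1 b = 0 := n3_false h
        have h2 : kb M (K \ K1) b = kb M K b :=
          n3_congr fun j' => ⟨fun h' => (Finset.mem_sdiff.1 h').1,
            fun h' => Finset.mem_sdiff.2 ⟨h', h j'⟩⟩
        rw [h1, h2]
        simp
    have hsum : ∑ b, min 2 (kb M K1 b) + ∑ b, min 2 (kb M (K \ K1) b) =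
        ∑ b, min 2 (kb M K b) := by
      rw [← Finset.sum_add_distrib]
      exact Finset.sum_congr rfl fun b _ => hs b
    omega

theorem fo_eq_some (b₀ : B) (b : Bz.BOff b₀) (j : Fin 3) (v : Bz.VOff M b₀) :
    Bz.Fo M b₀ b j = some v ↔ M.c j b.1 = v.1 := by
  unfold Bz.Fo
  split_ifs with h
  · rw [Option.some.injEq, Subtype.ext_iff]
  · constructor
    · intro h'; exact absurd h' (by simp)
    · intro h'
      exfalso
      apply h
      intro i
      rw [h']
      exact v.2 i

theorem card_off [DecidableEq B] (b₀ : B) [Fintype (Bz.BOff b₀)] [Fintype (Bz.VOff M b₀)]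
    (hM : Fintype.card V = Fintype.card B + 2) :
    Fintype.card (Bz.BOff b₀) = Fintype.card (Bz.VOff M b₀) := by
  classical
  have h1 : Fintype.card (Bz.BOff b₀) = Fintype.card B - 1 := by
    rw [Fintype.card_subtype, Finset.filter_ne', Finset.card_erase_of_mem (Finset.mem_univ _),
      Finset.card_univ]
  have h2 : Fintype.card (Bz.VOff M b₀) = Fintype.card V - 3 := by
    rw [Fintype.card_subtype]
    have h : (univ.filter fun v => ∀ j, M.c j b₀ ≠ v) =
        ((univ : Finset (Fin 3)).image fun j => M.c j b₀)ᶜ := by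
      ext v
      simp
    rw [h, Finset.card_compl, Finset.card_image_of_injective]
    · simp
    · intro i j hij
      exact M.cls _ _ _ _ hij
  have h3 : 0 < Fintype.card B := Fintype.card_pos_iff.2 ⟨b₀⟩
  omega

end All

theorem pairStmt : Bz.PairStmt := by
  classical
  intro B W V _ _ _ M hM h3 h4 b₀
  obtain ⟨f, g, φ, ψ, h1, h2, h5⟩ := H484.two_matchings_option (Bz.Fo M b₀)
    (card_off M b₀ hM.card) (by
    intro K
    have hK := hall_all M hM.conn h3 h4 b₀ _ (K.map (Function.Embedding.subtype _)) rfl (by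
      intro j hj
      rw [Finset.mem_map] at hj
      obtain ⟨v, -, hv⟩ := hj
      exact v.2 j hv.symm)
    rw [Finset.card_map] at hK
    refine hK.trans ?_
    have hb₀ : kb M (K.map (Function.Embedding.subtype _)) b₀ = 0 := by
      apply n3_false
      intro j hj
      rw [Finset.mem_map] at hj
      obtain ⟨v, -, hv⟩ := hj
      exact v.2 j hv.symm
    have hsum : ∑ b, min 2 (kb M (K.map (Function.Embedding.subtype _)) b) =
        ∑ b : Bz.BOff b₀, min 2 (kb M (K.map (Function.Embedding.subtype _)) b.1) := by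
      rw [← Finset.sum_subtype (univ.filter fun b => b ≠ b₀) (by simp)
        (fun b => min 2 (kb M (K.map (Function.Embedding.subtype _)) b))]
      rw [Finset.sum_filter]
      refine Finset.sum_congr rfl fun b _ => ?_
      by_cases hb : b = b₀
      · rw [hb, hb₀]; simp
      · rw [if_pos hb]
    rw [hsum]
    refine le_of_eq (Finset.sum_congr rfl fun b _ => ?_)
    congr 1
    unfold kb n3
    congr 1
    ext j
    simp only [Finset.mem_filter, Finset.mem_univ, true_and, Finset.mem_map,
      Function.Embedding.subtype_apply]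
    constructor
    · rintro ⟨v, hv, h⟩
      exact ⟨v, hv, (fo_eq_some M b₀ b j v).2 h.symm⟩
    · rintro ⟨v, hv, h⟩
      exact ⟨v, hv, ((fo_eq_some M b₀ b j v).1 h).symm⟩)
  exact ⟨f, g, ⟨φ, h2⟩, ⟨ψ, h5⟩, h1⟩

end Vale.Agent.P039.H792
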